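import Mathlib

/-!
# P160: a sharp-order lower bound for the singularity probability of symmetric sign matrices

`q n` is the probability that a uniformly random symmetric `n x n` sign matrix is singular.
We prove `q n >= n (n - 1) / 2 ^ n - 128 (n (n - 1)) ^ 2 / 4 ^ n`
by the second Bonferroni inequality applied to the `n (n - 1)` events
`row i = row j` and `row i = - row j`.
-/

open Finset

namespace Vale.Agent.Results.P160.SharpLower

/-- The symmetric sign matrix whose `(i,j)` entry is the sign attached to the unordered pair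
`{i,j}` (a diagonal entry for `i = j`). -/
def symMat {n : ℕ} (ε : Sym2 (Fin n) → ℤˣ) : Matrix (Fin n) (Fin n) ℤ :=
  fun i j => ((ε s(i, j) : ℤˣ) : ℤ)

/-- The singularity probability: the proportion of sign patterns on unordered pairs
(that is, of symmetric sign matrices) whose matrix has determinant zero. -/
noncomputable def q (n : ℕ) : ℝ :=
  ((univ.filter (fun ε : Sym2 (Fin n) → ℤˣ => (symMat ε).det = 0)).card : ℝ) /
    (Fintype.card (Sym2 (Fin n) → ℤˣ) : ℝ)

/-- second Bonferroni inequality, in a subtraction free form -/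
lemma bonf {Ω κ : Type*} [Fintype Ω] (I : Finset κ) (P : κ → Ω → Prop)
    [∀ a ω, Decidable (P a ω)] [∀ ω, Decidable (∃ a ∈ I, P a ω)] :
    3 * ∑ a ∈ I, (univ.filter (P a)).card ≤
      2 * (univ.filter (fun ω => ∃ a ∈ I, P a ω)).card +
        ∑ a ∈ I, ∑ b ∈ I, (univ.filter (fun ω => P a ω ∧ P b ω)).card := by
  simp only [Finset.card_filter]
  have h1 : ∑ a ∈ I, ∑ ω : Ω, (if P a ω then 1 else 0 : ℕ)
      = ∑ ω : Ω, ∑ a ∈ I, (if P a ω then 1 else 0 : ℕ) := Finset.sum_comm
  have h2 : ∑ a ∈ I, ∑ b ∈ I, ∑ ω : Ω, (if P a ω ∧ P b ω then 1 else 0 : ℕ)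
      = ∑ ω : Ω, (∑ a ∈ I, (if P a ω then 1 else 0 : ℕ)) * (∑ a ∈ I, (if P a ω then 1 else 0 : ℕ)) := by
    have : ∀ a ∈ I, ∑ b ∈ I, ∑ ω : Ω, (if P a ω ∧ P b ω then 1 else 0 : ℕ)
        = ∑ ω : Ω, ∑ b ∈ I, (if P a ω ∧ P b ω then 1 else 0 : ℕ) := fun a _ => Finset.sum_comm
    rw [Finset.sum_congr rfl this, Finset.sum_comm]
    refine Finset.sum_congr rfl (fun ω _ => ?_)
    rw [Finset.sum_mul_sum]
    refine Finset.sum_congr rfl (fun a _ => Finset.sum_congr rfl (fun b _ => ?_))
    by_cases ha : P a ω <;> by_cases hb : P b ω <;> simp [ha, hb]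
  rw [h1, h2, Finset.mul_sum, Finset.mul_sum, ← Finset.sum_add_distrib]
  refine Finset.sum_le_sum (fun ω _ => ?_)
  set X := ∑ a ∈ I, (if P a ω then 1 else 0 : ℕ) with hX
  by_cases hex : ∃ a ∈ I, P a ω
  · rw [if_pos hex]
    rcases Nat.lt_or_ge X 3 with h | h
    · interval_cases X <;> simp
    · nlinarith
  · rw [if_neg hex]
    have : X = 0 := by
      rw [hX]
      refine Finset.sum_eq_zero (fun a ha => ?_)
      rw [if_neg]
      exact fun hp => hex ⟨a, ha, hp⟩
    rw [this]; simp

/-- A family of sign patterns whose members are determined by their values off `T`. -/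
lemma card_le_of_determined {ι : Type*} [Fintype ι] [DecidableEq ι] (T : Finset ι)
    (E : Finset (ι → ℤˣ))
    (h : ∀ ε ∈ E, ∀ ε' ∈ E, (∀ p, p ∉ T → ε p = ε' p) → ε = ε') :
    E.card * 2 ^ T.card ≤ 2 ^ Fintype.card ι := by
  have h1 : E.card ≤ (univ : Finset ({p // p ∉ T} → ℤˣ)).card := by
    refine Finset.card_le_card_of_injOn (fun ε p => ε p.1) (fun _ _ => Finset.mem_coe.mpr (mem_univ _)) ?_
    intro ε hε ε' hε' heq
    refine h ε hε ε' hε' (fun p hp => ?_)
    exact congrFun heq ⟨p, hp⟩
  rw [Finset.card_univ, Fintype.card_fun, Fintype.card_units_int, Fintype.card_subtype_compl,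
    Fintype.card_coe] at h1
  have h2 : T.card ≤ Fintype.card ι := Finset.card_le_univ T
  calc E.card * 2 ^ T.card ≤ 2 ^ (Fintype.card ι - T.card) * 2 ^ T.card :=
        Nat.mul_le_mul_right _ h1
    _ = 2 ^ Fintype.card ι := by rw [← pow_add, Nat.sub_add_cancel h2]


/-- row `i` equals `s` times row `j` -/
def rowRel {n : ℕ} (i j : Fin n) (s : ℤˣ) (ε : Sym2 (Fin n) → ℤˣ) : Prop :=
  ∀ k, ε s(i, k) = s * ε s(j, k)

instance {n : ℕ} (i j : Fin n) (s : ℤˣ) (ε : Sym2 (Fin n) → ℤˣ) : Decidable (rowRel i j s ε) := by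
  unfold rowRel; infer_instance

lemma det_zero_of_rowRel {n : ℕ} {i j : Fin n} (hij : i ≠ j) (s : ℤˣ)
    (ε : Sym2 (Fin n) → ℤˣ) (h : rowRel i j s ε) : (symMat ε).det = 0 := by
  rw [← Matrix.det_updateRow_add_smul_self (symMat ε) hij (-(s : ℤ))]
  refine Matrix.det_eq_zero_of_row_eq_zero i (fun k => ?_)
  rw [Matrix.updateRow_self]
  simp only [Pi.add_apply, Pi.smul_apply, symMat, smul_eq_mul]
  rw [h k]
  push_cast
  ring

lemma rowRel_symm {n : ℕ} (i j : Fin n) (s : ℤˣ) (ε : Sym2 (Fin n) → ℤˣ) :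
    rowRel i j s ε ↔ rowRel j i s ε := by
  constructor <;> intro h k
  · rw [h k, ← mul_assoc, Int.units_mul_self, one_mul]
  · rw [h k, ← mul_assoc, Int.units_mul_self, one_mul]

/-- an explicit sign pattern with row `i` equal to `s` times row `j` -/
def witness {n : ℕ} (i : Fin n) (s : ℤˣ) : Sym2 (Fin n) → ℤˣ :=
  fun p => if i ∈ p ∧ p ≠ s(i, i) then s else 1

lemma witness_rowRel {n : ℕ} {i j : Fin n} (hij : i ≠ j) (s : ℤˣ) :
    rowRel i j s (witness i s) := by
  intro k
  unfold witness
  by_cases hk : k = i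
  · subst hk
    have h1 : (k ∈ s(j, k) ∧ s(j, k) ≠ s(k, k)) := by
      refine ⟨by simp, ?_⟩
      intro h
      rw [Sym2.eq_iff] at h
      rcases h with h | h <;> exact hij h.1.symm
    rw [if_pos h1, if_neg (by simp), Int.units_mul_self]
  · have h1 : (i ∈ s(i, k) ∧ s(i, k) ≠ s(i, i)) := by
      refine ⟨by simp, ?_⟩
      intro h
      rw [Sym2.eq_iff] at h
      rcases h with h | h <;> exact hk h.2
    have h2 : ¬ (i ∈ s(j, k) ∧ s(j, k) ≠ s(i, i)) := by
      intro h
      have := h.1
      rw [Sym2.mem_iff] at this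
      rcases this with h3 | h3
      · exact hij h3
      · exact hk h3.symm
    rw [if_pos h1, if_neg h2, mul_one]

/-- each event `row i = s row j` has probability at least `2^{-n}` -/
lemma card_rowRel_ge {n : ℕ} {i j : Fin n} (hij : i ≠ j) (s : ℤˣ) :
    2 ^ Fintype.card (Sym2 (Fin n)) ≤ 2 ^ n * (univ.filter (rowRel i j s)).card := by
  classical
  set φ : (Sym2 (Fin n) → ℤˣ) → (Fin n → ℤˣ) := fun ε k => ε s(i, k) * ε s(j, k) with hφ
  have h0 : (univ : Finset (Sym2 (Fin n) → ℤˣ)).card
      = ∑ t ∈ (univ : Finset (Fin n → ℤˣ)), (univ.filter (fun ε => φ ε = t)).card :=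
    Finset.card_eq_sum_card_fiberwise (fun _ _ => Finset.mem_coe.mpr (mem_univ _))
  have h1 : ∀ t ∈ (univ : Finset (Fin n → ℤˣ)),
      (univ.filter (fun ε => φ ε = t)).card ≤ (univ.filter (rowRel i j s)).card := by
    intro t _
    rcases (univ.filter (fun ε => φ ε = t)).eq_empty_or_nonempty with he | ⟨ε₀, hε₀⟩
    · rw [he]; simp
    · have hε₀' : φ ε₀ = t := (Finset.mem_filter.mp hε₀).2
      refine Finset.card_le_card_of_injOn (fun ε => ε * ε₀ * witness i s) ?_ ?_
      · intro ε hε
        have hε' : φ ε = t := (Finset.mem_filter.mp (Finset.mem_coe.mp hε)).2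
        refine Finset.mem_coe.mpr (Finset.mem_filter.mpr ⟨mem_univ _, ?_⟩)
        intro k
        have e1 : ε s(i, k) * ε s(j, k) = ε₀ s(i, k) * ε₀ s(j, k) := by
          have := congrFun (hε'.trans hε₀'.symm) k
          simpa [hφ] using this
        have e2 := witness_rowRel hij s k
        simp only [Pi.mul_apply]
        rw [e2]
        have e3 : ε s(i, k) * ε₀ s(i, k) = ε s(j, k) * ε₀ s(j, k) := by
          have a1 := Int.units_mul_self (ε s(j, k))
          have a2 := Int.units_mul_self (ε₀ s(i, k))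
          calc ε s(i, k) * ε₀ s(i, k)
              = (ε s(i, k) * ε s(j, k)) * (ε s(j, k) * ε₀ s(i, k)) := by
                rw [mul_assoc, ← mul_assoc (ε s(j, k)), a1, one_mul]
            _ = (ε₀ s(i, k) * ε₀ s(j, k)) * (ε s(j, k) * ε₀ s(i, k)) := by rw [e1]
            _ = (ε₀ s(i, k) * ε₀ s(i, k)) * (ε s(j, k) * ε₀ s(j, k)) := by ac_rfl
            _ = ε s(j, k) * ε₀ s(j, k) := by rw [a2, one_mul]
        rw [e3]
        ac_rfl
      · intro ε _ ε' _ h
        simpa using h
  rw [Finset.card_univ, Fintype.card_fun, Fintype.card_units_int] at h0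
  rw [h0]
  calc ∑ t ∈ (univ : Finset (Fin n → ℤˣ)), (univ.filter (fun ε => φ ε = t)).card
      ≤ ∑ _t ∈ (univ : Finset (Fin n → ℤˣ)), (univ.filter (rowRel i j s)).card :=
        Finset.sum_le_sum h1
    _ = 2 ^ n * (univ.filter (rowRel i j s)).card := by
        rw [Finset.sum_const, Finset.card_univ, Fintype.card_fun, Fintype.card_units_int,
          Fintype.card_fin, smul_eq_mul]

lemma card_pair_le {n : ℕ} {i j k l : Fin n} (hij : i ≠ j) (hkl : k ≠ l) (hik : i ≠ k)
    (hil : i ≠ l) (hkj : k ≠ j) (s t : ℤˣ) :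
    (univ.filter (fun ε => rowRel i j s ε ∧ rowRel k l t ε)).card * 4 ^ (n - 4)
      ≤ 2 ^ Fintype.card (Sym2 (Fin n)) := by
  classical
  set U : Finset (Fin n) := {i, j, k, l} with hU
  have memU : ∀ c, c ∉ U → c ≠ i ∧ c ≠ j ∧ c ≠ k ∧ c ≠ l := by
    intro c hc
    simp only [hU, Finset.mem_insert, Finset.mem_singleton, not_or] at hc
    exact hc
  set T : Finset (Sym2 (Fin n)) := (Uᶜ.image (fun c => s(i, c))) ∪ (Uᶜ.image (fun c => s(k, c)))
    with hT
  have hcardT : T.card = 2 * Uᶜ.card := by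
    rw [hT, Finset.card_union_of_disjoint, Finset.card_image_of_injective,
      Finset.card_image_of_injective, two_mul]
    · intro c c' h
      simp only [Sym2.eq_iff] at h
      rcases h with h | h
      · exact h.2
      · exact h.2.trans h.1
    · intro c c' h
      simp only [Sym2.eq_iff] at h
      rcases h with h | h
      · exact h.2
      · exact h.2.trans h.1
    · rw [Finset.disjoint_left]
      intro p hp hp'
      obtain ⟨c, hc, rfl⟩ := Finset.mem_image.mp hp
      obtain ⟨c', hc', h⟩ := Finset.mem_image.mp hp'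
      rw [Sym2.eq_iff] at h
      rcases h with h | h
      · exact hik h.1.symm
      · exact (memU c' (Finset.mem_compl.mp hc')).1 h.2
  have hUc : n - 4 ≤ Uᶜ.card := by
    rw [Finset.card_compl, Fintype.card_fin]
    have : U.card ≤ 4 := Finset.card_le_four
    omega
  have key := card_le_of_determined T (univ.filter (fun ε => rowRel i j s ε ∧ rowRel k l t ε)) ?_
  · calc (univ.filter (fun ε => rowRel i j s ε ∧ rowRel k l t ε)).card * 4 ^ (n - 4)
        = (univ.filter (fun ε => rowRel i j s ε ∧ rowRel k l t ε)).card * 2 ^ (2 * (n - 4)) := by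
          rw [pow_mul]; norm_num
      _ ≤ (univ.filter (fun ε => rowRel i j s ε ∧ rowRel k l t ε)).card * 2 ^ T.card := by
          refine Nat.mul_le_mul_left _ (Nat.pow_le_pow_right (by norm_num) ?_)
          rw [hcardT]; omega
      _ ≤ _ := key
  · intro ε hε ε' hε' hagree
    obtain ⟨h1, h2⟩ := (Finset.mem_filter.mp hε).2
    obtain ⟨h1', h2'⟩ := (Finset.mem_filter.mp hε').2
    funext p
    by_cases hp : p ∈ T
    · rcases Finset.mem_union.mp hp with hp | hp
      · obtain ⟨c, hc, rfl⟩ := Finset.mem_image.mp hp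
        have hc' := memU c (Finset.mem_compl.mp hc)
        rw [h1 c, h1' c, hagree]
        intro hmem
        rcases Finset.mem_union.mp hmem with hm | hm
        · obtain ⟨d, hd, h⟩ := Finset.mem_image.mp hm
          have hd' := memU d (Finset.mem_compl.mp hd)
          rw [Sym2.eq_iff] at h
          rcases h with h | h
          · exact hij h.1
          · exact hd'.2.1 h.2
        · obtain ⟨d, hd, h⟩ := Finset.mem_image.mp hm
          have hd' := memU d (Finset.mem_compl.mp hd)
          rw [Sym2.eq_iff] at h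
          rcases h with h | h
          · exact hkj h.1
          · exact hd'.2.1 h.2
      · obtain ⟨c, hc, rfl⟩ := Finset.mem_image.mp hp
        have hc' := memU c (Finset.mem_compl.mp hc)
        rw [h2 c, h2' c, hagree]
        intro hmem
        rcases Finset.mem_union.mp hmem with hm | hm
        · obtain ⟨d, hd, h⟩ := Finset.mem_image.mp hm
          have hd' := memU d (Finset.mem_compl.mp hd)
          rw [Sym2.eq_iff] at h
          rcases h with h | h
          · exact hil h.1
          · exact hd'.2.2.2 h.2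
        · obtain ⟨d, hd, h⟩ := Finset.mem_image.mp hm
          have hd' := memU d (Finset.mem_compl.mp hd)
          rw [Sym2.eq_iff] at h
          rcases h with h | h
          · exact hkl h.1
          · exact hd'.2.2.2 h.2
    · exact hagree p hp

/-- sign attached to an ordered pair: `+` if increasing, `-` if decreasing -/
def sg {n : ℕ} (a : Fin n × Fin n) : ℤˣ := if a.1 < a.2 then 1 else -1

lemma card_pair_general {n : ℕ} (a b : Fin n × Fin n) (ha : a.1 ≠ a.2) (hb : b.1 ≠ b.2)
    (hab : a ≠ b) :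
    (univ.filter (fun ε => rowRel a.1 a.2 (sg a) ε ∧ rowRel b.1 b.2 (sg b) ε)).card * 4 ^ (n - 4)
      ≤ 2 ^ Fintype.card (Sym2 (Fin n)) := by
  obtain ⟨i, j⟩ := a
  obtain ⟨k, l⟩ := b
  simp only at ha hb ⊢
  by_cases hik : i = k
  · subst hik
    have hjl : j ≠ l := fun h => hab (by rw [h])
    have e : (univ.filter (fun ε => rowRel i j (sg (i, j)) ε ∧ rowRel i l (sg (i, l)) ε))
        = (univ.filter (fun ε => rowRel j i (sg (i, j)) ε ∧ rowRel l i (sg (i, l)) ε)) := by
      refine Finset.filter_congr (fun ε _ => ?_)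
      rw [rowRel_symm i j, rowRel_symm i l]
    rw [e]
    exact card_pair_le (Ne.symm ha) (Ne.symm hb) hjl (Ne.symm ha) (Ne.symm hb) _ _
  · by_cases hil : i = l
    · subst hil
      by_cases hjk : j = k
      · subst hjk
        -- opposite orientation of the same pair: the two events are incompatible
        have hempty : (univ.filter (fun ε => rowRel i j (sg (i, j)) ε ∧ rowRel j i (sg (j, i)) ε))
            = ∅ := by
          refine Finset.filter_eq_empty_iff.mpr (fun ε _ h => ?_)
          obtain ⟨h1, h2⟩ := h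
          have e1 := h1 i
          have e2 := h2 i
          have hs : sg (i, j) * sg (j, i) = -1 := by
            unfold sg
            simp only
            rcases lt_or_gt_of_ne ha with h | h
            · rw [if_pos h, if_neg (not_lt.mpr h.le)]; simp
            · rw [if_neg (not_lt.mpr h.le), if_pos h]; simp
          rw [e2, ← mul_assoc, hs] at e1
          have e3 : ((ε s(i, i) : ℤˣ) : ℤ) = -((ε s(i, i) : ℤˣ) : ℤ) := by
            have := congrArg (fun u : ℤˣ => (u : ℤ)) e1
            simpa using this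
          have e4 : ((ε s(i, i) : ℤˣ) : ℤ) ≠ 0 := (ε s(i, i)).ne_zero
          omega
        rw [hempty]; simp
      · have e : (univ.filter (fun ε => rowRel i j (sg (i, j)) ε ∧ rowRel k i (sg (k, i)) ε))
            = (univ.filter (fun ε => rowRel j i (sg (i, j)) ε ∧ rowRel k i (sg (k, i)) ε)) := by
          refine Finset.filter_congr (fun ε _ => ?_)
          rw [rowRel_symm i j]
        rw [e]
        exact card_pair_le (Ne.symm ha) hb hjk (Ne.symm ha) hb _ _
    · by_cases hkj : k = j
      · subst hkj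
        have e : (univ.filter (fun ε => rowRel i k (sg (i, k)) ε ∧ rowRel k l (sg (k, l)) ε))
            = (univ.filter (fun ε => rowRel i k (sg (i, k)) ε ∧ rowRel l k (sg (k, l)) ε)) := by
          refine Finset.filter_congr (fun ε _ => ?_)
          rw [rowRel_symm k l]
        rw [e]
        exact card_pair_le ha (Ne.symm hb) hil hik (Ne.symm hb) _ _
      · exact card_pair_le ha hb hik hil hkj _ _

theorem result (n : ℕ) :
    (n : ℝ) * (n - 1) / 2 ^ n - 128 * ((n : ℝ) * (n - 1)) ^ 2 / 4 ^ n ≤ q n := by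
  classical
  set I : Finset (Fin n × Fin n) := (univ : Finset (Fin n)).offDiag with hI
  set P : Fin n × Fin n → (Sym2 (Fin n) → ℤˣ) → Prop := fun a ε => rowRel a.1 a.2 (sg a) ε with hP
  set N : ℝ := (2 : ℝ) ^ Fintype.card (Sym2 (Fin n)) with hN
  have hNpos : 0 < N := by positivity
  have hcardI : (I.card : ℝ) = (n : ℝ) * (n - 1) := by
    rw [hI, Finset.offDiag_card, Finset.card_univ, Fintype.card_fin]
    have : n ≤ n * n := Nat.le_mul_self n
    push_cast [Nat.cast_sub this]
    ring
  have hne : ∀ a ∈ I, a.1 ≠ a.2 := fun a ha => (Finset.mem_offDiag.mp ha).2.2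
  set e : Fin n × Fin n → ℝ := fun a => ((univ.filter (P a)).card : ℝ) with he
  set β : ℝ := N / 4 ^ (n - 4) with hβ
  have hβpos : 0 ≤ β := by positivity
  have h_e : ∀ a ∈ I, N / 2 ^ n ≤ e a := by
    intro a ha
    have h1 := card_rowRel_ge (hne a ha) (sg a)
    have h2 : N ≤ 2 ^ n * e a := by
      simp only [hN, he, hP]
      exact_mod_cast h1
    rw [div_le_iff₀ (by positivity)]
    linarith
  have h_pair : ∀ a ∈ I, ∀ b ∈ I,
      ((univ.filter (fun ε => P a ε ∧ P b ε)).card : ℝ) ≤ (if a = b then e a else 0) + β := by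
    intro a ha b hb
    by_cases hab : a = b
    · subst hab
      rw [if_pos rfl]
      have : (univ.filter (fun ε => P a ε ∧ P a ε)) = univ.filter (P a) := by
        refine Finset.filter_congr (fun ε _ => ?_)
        simp
      rw [this]
      linarith
    · rw [if_neg hab, zero_add, hβ, le_div_iff₀ (by positivity)]
      have h1 := card_pair_general a b (hne a ha) (hne b hb) hab
      simp only [hN, hP]
      exact_mod_cast h1
  have hb := bonf I P
  have hb' : 3 * ∑ a ∈ I, e a ≤ 2 * ((univ.filter (fun ε => ∃ a ∈ I, P a ε)).card : ℝ)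
      + ∑ a ∈ I, ∑ b ∈ I, ((univ.filter (fun ε => P a ε ∧ P b ε)).card : ℝ) := by
    simp only [he]
    exact_mod_cast hb
  have hsum2 : ∑ a ∈ I, ∑ b ∈ I, ((univ.filter (fun ε => P a ε ∧ P b ε)).card : ℝ)
      ≤ ∑ a ∈ I, e a + (I.card : ℝ) * ((I.card : ℝ) * β) := by
    calc ∑ a ∈ I, ∑ b ∈ I, ((univ.filter (fun ε => P a ε ∧ P b ε)).card : ℝ)
        ≤ ∑ a ∈ I, (e a + (I.card : ℝ) * β) := by
          refine Finset.sum_le_sum (fun a ha => ?_)
          calc ∑ b ∈ I, ((univ.filter (fun ε => P a ε ∧ P b ε)).card : ℝ)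
              ≤ ∑ b ∈ I, ((if a = b then e a else 0) + β) :=
                Finset.sum_le_sum (fun b hb => h_pair a ha b hb)
            _ = e a + (I.card : ℝ) * β := by
                rw [Finset.sum_add_distrib, Finset.sum_ite_eq, if_pos ha, Finset.sum_const,
                  nsmul_eq_mul]
      _ = ∑ a ∈ I, e a + (I.card : ℝ) * ((I.card : ℝ) * β) := by
          rw [Finset.sum_add_distrib, Finset.sum_const, nsmul_eq_mul]
  have hsum1 : (I.card : ℝ) * (N / 2 ^ n) ≤ ∑ a ∈ I, e a := by
    calc (I.card : ℝ) * (N / 2 ^ n) = ∑ _a ∈ I, N / 2 ^ n := by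
          rw [Finset.sum_const, nsmul_eq_mul]
      _ ≤ ∑ a ∈ I, e a := Finset.sum_le_sum h_e
  have hsub : ((univ.filter (fun ε => ∃ a ∈ I, P a ε)).card : ℝ)
      ≤ ((univ.filter (fun ε : Sym2 (Fin n) → ℤˣ => (symMat ε).det = 0)).card : ℝ) := by
    have : (univ.filter (fun ε => ∃ a ∈ I, P a ε))
        ⊆ (univ.filter (fun ε : Sym2 (Fin n) → ℤˣ => (symMat ε).det = 0)) := by
      intro ε hε
      obtain ⟨a, ha, hPa⟩ := (Finset.mem_filter.mp hε).2
      exact Finset.mem_filter.mpr ⟨mem_univ _, det_zero_of_rowRel (hne a ha) (sg a) ε hPa⟩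
    exact_mod_cast Finset.card_le_card this
  have hcardΩ : (Fintype.card (Sym2 (Fin n) → ℤˣ) : ℝ) = N := by
    rw [Fintype.card_fun, Fintype.card_units_int, hN]
    push_cast
    rfl
  unfold q
  rw [hcardΩ, le_div_iff₀ hNpos]
  have h4 : (4 : ℝ) ^ n ≤ 256 * 4 ^ (n - 4) := by
    rcases Nat.lt_or_ge n 4 with h | h
    · have h1 : n - 4 = 0 := by omega
      rw [h1, pow_zero]
      interval_cases n <;> norm_num
    · have h1 : n = (n - 4) + 4 := by omega
      have h2 : (4 : ℝ) ^ n = 256 * 4 ^ (n - 4) := by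
        calc (4 : ℝ) ^ n = 4 ^ ((n - 4) + 4) := by rw [← h1]
          _ = 4 ^ (n - 4) * 256 := by rw [pow_add]; norm_num
          _ = 256 * 4 ^ (n - 4) := by ring
      exact h2.le
  have hβ2 : β ≤ 256 * N / 4 ^ n := by
    rw [hβ, div_le_div_iff₀ (by positivity) (by positivity)]
    nlinarith
  set c : ℝ := (I.card : ℝ) with hc
  have hc0 : 0 ≤ c := by positivity
  rw [← hcardI]
  have h5 : c * (c * β) ≤ c * (c * (256 * N / 4 ^ n)) :=
    mul_le_mul_of_nonneg_left (mul_le_mul_of_nonneg_left hβ2 hc0) hc0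
  have h6 : (c / 2 ^ n - 128 * c ^ 2 / 4 ^ n) * N
      = c * (N / 2 ^ n) - c * (c * (256 * N / 4 ^ n)) / 2 := by
    field_simp
    ring
  rw [h6]
  linarith

end Vale.Agent.Results.P160.SharpLower
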